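import Vale.Agent.P032.H535.BiexD
import Vale.Agent.P032.Words6.H306.SixLoc
import Vale.Agent.P032.Words6.H926.Tab35
import Vale.Agent.P032.R2.H616.ActOf
import Vale.Agent.P032.H535.AltH
import Vale.Agent.P032.H515.IsoGlue
import Vale.Agent.P032.H283.Isp.Top

open Set Filter Topology Metric

namespace Vale.Agent.Results.P032.BiexactPairs

/-- The points of order `> n`: no `n` of the six sets have, near the point, the same union as all
six. -/
def OrderGT (U : Fin 6 → Set (EuclideanSpace ℝ (Fin 2))) (n : ℕ) :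
    Set (EuclideanSpace ℝ (Fin 2)) :=
  {z | ∀ s : Set (Fin 6), s.ncard ≤ n → z ∈ closure ((⋃ j, U j) \ ⋃ i ∈ s, U i)}

/-- `s` is a palette of `y`: near `y` the sets `U i`, `i ∈ s`, have the same union as all six, and
this holds for no proper subset of `s`. -/
def IsPalette (U : Fin 6 → Set (EuclideanSpace ℝ (Fin 2))) (y : EuclideanSpace ℝ (Fin 2))
    (s : Set (Fin 6)) : Prop :=
  y ∉ closure ((⋃ j, U j) \ ⋃ i ∈ s, U i) ∧
    ∀ s' ⊂ s, y ∈ closure ((⋃ j, U j) \ ⋃ i ∈ s', U i)

/-- The biexact points with a palette `P` of `n` indices: `P` contains disjoint sets `A` and `B`,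
each of at least two indices, such that `A` is a palette of all points of an arc of the unit circle
about `x`, and `B` is a palette of all points of another (disjoint) arc of it. -/
def Biexact (U : Fin 6 → Set (EuclideanSpace ℝ (Fin 2))) (n : ℕ) :
    Set (EuclideanSpace ℝ (Fin 2)) :=
  {x | ∃ P A B : Set (Fin 6), P.ncard = n ∧ IsPalette U x P ∧ A ⊆ P ∧ B ⊆ P ∧ Disjoint A B ∧
    2 ≤ A.ncard ∧ 2 ≤ B.ncard ∧ ∃ p q, dist p x = 1 ∧ dist q x = 1 ∧ ∃ r > 0, 2 * r ≤ dist p q ∧
      (∀ y, dist y x = 1 → dist y p < r → IsPalette U y A) ∧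
      ∀ y, dist y x = 1 → dist y q < r → IsPalette U y B}

theorem biexact_of {U : Fin 6 → Set (EuclideanSpace ℝ (Fin 2))} {n : ℕ}
    {x : EuclideanSpace ℝ (Fin 2)} (h : Vale.Agent.P032.H535.BD U n x) : x ∈ Biexact U n := by
  obtain ⟨P, A, B, h0, h1, h2, h3, h4, h5, h6, h7⟩ := h
  exact ⟨P, A, B, h0, h1, h2, h3, h4, h5, h6, h7⟩

/-- Let `V i` be six open subsets of the Euclidean plane without two points at distance one whose
union is dense (by `AllColouringsOpen` a proper 6-colouring of the plane exists if and only if there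
are six such sets).  They are contained in sets `U i` which are maximal among the open sets without
two points at distance one.

Let `U` be such a maximal family.  Every closed disc of radius 39 contains a point `z` of order
`> n - 1` which is a limit of biexact points with palettes of `n` indices, for some `n ≥ 4`, with a
point of order `> 3` at distance one from `z`.

More generally, let `O k`, `k ≥ 3`, be open sets such that `O k` contains all points of order `> k`.
Then every closed disc of radius 39 contains a biexact point `z` with a palette of `n ≥ 4`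
indices and a point `z'` with a palette of `n' ≥ 4` indices at distance one from `z`, such that `z`
is in `O k` for `3 ≤ k < n` and `z'` is in `O k` for `3 ≤ k < n'`. -/
theorem result :
    (∀ V : Fin 6 → Set (EuclideanSpace ℝ (Fin 2)), (∀ i, IsOpen (V i)) →
      (∀ i, ∀ x ∈ V i, ∀ y ∈ V i, dist x y ≠ 1) → Dense (⋃ i, V i) →
      ∃ U : Fin 6 → Set (EuclideanSpace ℝ (Fin 2)), (∀ i, V i ⊆ U i) ∧ Dense (⋃ i, U i) ∧
        ∀ i, Maximal (fun W : Set (EuclideanSpace ℝ (Fin 2)) =>
          IsOpen W ∧ ∀ x ∈ W, ∀ y ∈ W, dist x y ≠ 1) (U i)) ∧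
    (∀ U : Fin 6 → Set (EuclideanSpace ℝ (Fin 2)), Dense (⋃ i, U i) →
      (∀ i, Maximal (fun W : Set (EuclideanSpace ℝ (Fin 2)) =>
        IsOpen W ∧ ∀ x ∈ W, ∀ y ∈ W, dist x y ≠ 1) (U i)) →
      ∀ o : EuclideanSpace ℝ (Fin 2),
      (∃ z z' n, dist z o ≤ 39 ∧ dist z z' = 1 ∧ 4 ≤ n ∧ z ∈ OrderGT U (n - 1) ∧
        z' ∈ OrderGT U 3 ∧ z ∈ closure (Biexact U n)) ∧
      ∀ O : ℕ → Set (EuclideanSpace ℝ (Fin 2)), (∀ k, IsOpen (O k)) →
        (∀ k, 3 ≤ k → OrderGT U k ⊆ O k) →
        ∃ z z' n n', dist z o ≤ 39 ∧ dist z z' = 1 ∧ 4 ≤ n ∧ 4 ≤ n' ∧ z ∈ Biexact U n ∧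
          (∃ P, P.ncard = n' ∧ IsPalette U z' P) ∧
          (∀ k, 3 ≤ k → k < n → z ∈ O k) ∧ ∀ k, 3 ≤ k → k < n' → z' ∈ O k) := by
  refine ⟨fun V hV hfree hd => ?_, fun U hd hU o => ?_⟩
  · choose U hVU hU using fun i =>
      Vale.Agent.P032.S5.H926.exists_maximal_ge (hV i) (hfree i)
    exact ⟨U, hVU, hd.mono (iUnion_mono hVU), hU⟩
  obtain ⟨h1, h2⟩ := Vale.Agent.P032.H535.disc_biexD (ρ := 1) (by norm_num)
    (Vale.Agent.P032.H535.noAltLoc_one (Vale.Agent.P032.H515.noIso_of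
      Vale.Agent.P032.H283.Isp.no_fr))
    (Vale.Agent.P032.Words6.H306.no_six_loc_of Vale.Agent.P032.Words6.H926.tab35)
    Vale.Agent.P032.R2.H616.actLoc hd hU o
  have hR : (38 : ℝ) + 1 = 39 := by norm_num
  rw [hR] at h1 h2
  refine ⟨?_, fun O hO hX => ?_⟩
  · obtain ⟨z, hz, z', n, h3, h4, h5, h6, h7⟩ := h2
    exact ⟨z, z', n + 1, hz, h3, by omega, h5, h6, closure_mono (fun x hx => biexact_of hx) h7⟩
  · obtain ⟨z, hz, z', n, n', h3, h4, h5, h6, h7, h8⟩ := h1 O hO hX
    exact ⟨z, z', n, n', hz, h3, h4, h5, biexact_of h6, h7, h8⟩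

end Vale.Agent.Results.P032.BiexactPairs
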