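import Vale.Agent.P032X.H355.Hx
import Vale.Agent.P032X.X1.Dead

open Set Filter Topology Metric

namespace Vale.Agent.Results.P032.MapNoFiveFive

/-- **Two points at distance one of a six-coloured planar map which see all six colours.**

A locally finite map in the Euclidean plane: the edges `g e` are arcs, continuous on `[0, 1]`,
injective on `(0, 1)`, no inner point of an edge is on another edge or an end point of an edge
(closed edges are allowed), and each bounded set meets only finitely many edges.  The faces `G f`
are connected open sets, locally finite, which cover the complement of the edges, and the inner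
points of an edge `e` are all in the closures of the same one or two faces `a`, `b` and of no other
face.

Let the faces be coloured with six colours such that no two points of faces of the same colour (of
the same face or of two faces) have distance one.  Let `x` and `y` be two points of the plane at
distance one.  Then there is a colour `i` such that no closed face of colour `i` contains a point at
distance one from `x`, or such that no closed face of colour `i` contains a point at distance one
from `y`, or `x` is in no closed face of two of the colours, or `y` is in no closed face of two of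
the colours.  So if both points have all six colours at distance one and five colours meet at `x`,
at most four colours meet at `y`. -/
theorem result {ι κ : Type*}
    (g : ι → ℝ → EuclideanSpace ℝ (Fin 2)) (G : κ → Set (EuclideanSpace ℝ (Fin 2)))
    (hcont : ∀ e, ContinuousOn (g e) (Icc 0 1))
    (hfin : LocallyFinite fun e => g e '' Icc 0 1)
    (hinj : ∀ e e' u u', u ∈ Ioo (0 : ℝ) 1 → u' ∈ Icc (0 : ℝ) 1 → g e u = g e' u' →
      e = e' ∧ u = u')
    (hopen : ∀ f, IsOpen (G f)) (hconn : ∀ f, IsPreconnected (G f)) (hfinG : LocallyFinite G)
    (hcov : ∀ x, (∀ e, x ∉ g e '' Icc 0 1) → ∃ f, x ∈ G f)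
    (hside : ∀ e, ∃ a b, ∀ u ∈ Ioo (0 : ℝ) 1, ∀ f, g e u ∈ closure (G f) ↔ f = a ∨ f = b)
    (c : κ → Fin 6) (hc : ∀ f f', c f = c f' → ∀ x ∈ G f, ∀ y ∈ G f', dist x y ≠ 1)
    (x y : EuclideanSpace ℝ (Fin 2)) (hxy : dist x y = 1) :
    (∃ i, (∀ f, c f = i → ∀ p ∈ closure (G f), dist x p ≠ 1) ∨
        ∀ f, c f = i → ∀ p ∈ closure (G f), dist y p ≠ 1) ∨
      (∃ s : Finset (Fin 6), s.card = 2 ∧ ∀ f, c f ∈ s → x ∉ closure (G f)) ∨
      ∃ s : Finset (Fin 6), s.card = 2 ∧ ∀ f, c f ∈ s → y ∉ closure (G f) := by
  by_cases hs : ∃ i, (∀ f, c f = i → ∀ p ∈ closure (G f), dist x p ≠ 1) ∨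
        ∀ f, c f = i → ∀ p ∈ closure (G f), dist y p ≠ 1
  · exact Or.inl hs
  push Not at hs
  exact Or.inr (Vale.Agent.P032.H355.PlMap.pair55_of
    (fun _ _ h h5 => Vale.Agent.P032.H355.n55_mapC Vale.Agent.P032.X1.dead h h5)
    ⟨hcont, hfin, hinj, hopen, hconn, hfinG, hcov, hside⟩ c hc x y hxy
    (fun i => (hs i).1) fun i => (hs i).2)

end Vale.Agent.Results.P032.MapNoFiveFive
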