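import Vale.Agent.P032W.H355.Crit
import Vale.Agent.P032W.H892.No6

open Set Filter Topology Metric

namespace Vale.Agent.Results.P032.MapNoSixPoint

/-- **No critical six-coloured point in a six-coloured planar map.**

A locally finite map in the Euclidean plane: the edges `g e` are arcs, continuous on `[0, 1]`,
injective on `(0, 1)`, no inner point of an edge is on another edge or an end point of an edge
(closed edges are allowed), and each bounded set meets only finitely many edges.  The faces `G f`
are connected open sets, locally finite, which cover the complement of the edges, and the inner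
points of an edge `e` are all in the closures of the same one or two faces `a`, `b` and of no other
face.

Let the faces be coloured with six colours such that no two points of faces of the same colour (of
the same face or of two faces) have distance one.  Then every point `x` of the plane has a colour
`i` such that no closed face of colour `i` contains `x`, or no closed face of colour `i` contains a
point at distance one from `x`.  In the second case a small disc about `x` can be recoloured with
the colour `i`.  So there is no point at which all six colours meet and which sees all six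
colours at distance one. -/
theorem result {ι κ : Type*}
    (g : ι → ℝ → EuclideanSpace ℝ (Fin 2)) (G : κ → Set (EuclideanSpace ℝ (Fin 2)))
    (hcont : ∀ e, ContinuousOn (g e) (Icc 0 1))
    (hfin : LocallyFinite fun e => g e '' Icc 0 1)
    (hinj : ∀ e e' u u', u ∈ Ioo (0 : ℝ) 1 → u' ∈ Icc (0 : ℝ) 1 → g e u = g e' u' →
      e = e' ∧ u = u')
    (hopen : ∀ f, IsOpen (G f)) (hconn : ∀ f, IsPreconnected (G f)) (hfinG : LocallyFinite G)
    (hcov : ∀ x, (∀ e, x ∉ g e '' Icc 0 1) → ∃ f, x ∈ G f)
    (hside : ∀ e, ∃ a b, ∀ u ∈ Ioo (0 : ℝ) 1, ∀ f, g e u ∈ closure (G f) ↔ f = a ∨ f = b)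
    (c : κ → Fin 6) (hc : ∀ f f', c f = c f' → ∀ x ∈ G f, ∀ y ∈ G f', dist x y ≠ 1)
    (x : EuclideanSpace ℝ (Fin 2)) :
    ∃ i, (∀ f, c f = i → x ∉ closure (G f)) ∨
      ∀ f, c f = i → ∀ y ∈ closure (G f), dist x y ≠ 1 := by
  refine Vale.Agent.P032.H355.PlMap.not_all (fun U T hI hL hC z hz => ?_)
    ⟨hcont, hfin, hinj, hopen, hconn, hfinG, hcov, hside⟩ c hc x
  refine Vale.Agent.P032.H892.no6 hI hL (fun i => ((hC z).self_of_nhds i (hz i)).cn) ?_ hz
  filter_upwards [hC z] with w hw i hi
  obtain ⟨Q, h1, h2, h3, h4, -⟩ := hw i hi
  exact ⟨Q, h1, h2, h3, h4⟩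

end Vale.Agent.Results.P032.MapNoSixPoint
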