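import Vale.Agent.P032.H821.ArcP
import Vale.Agent.P032.H993.BadW

open Set Filter Topology Metric

namespace Vale.Agent.Results.P032.SpecialPairs

/-- The points of order `> n`: no `n` of the six sets have, near the point, the same union as all
six. -/
def OrderGT (U : Fin 6 → Set (EuclideanSpace ℝ (Fin 2))) (n : ℕ) :
    Set (EuclideanSpace ℝ (Fin 2)) :=
  {z | ∀ s : Set (Fin 6), s.ncard ≤ n → z ∈ closure ((⋃ j, U j) \ ⋃ i ∈ s, U i)}

/-- `s` is a palette of `y`: near `y` the sets `U i`, `i ∈ s`, have the same union as all six, and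
this holds for no proper subset of `s`. -/
def IsPalette (U : Fin 6 → Set (EuclideanSpace ℝ (Fin 2))) (y : EuclideanSpace ℝ (Fin 2))
    (s : Set (Fin 6)) : Prop :=
  y ∉ closure ((⋃ j, U j) \ ⋃ i ∈ s, U i) ∧
    ∀ s' ⊂ s, y ∈ closure ((⋃ j, U j) \ ⋃ i ∈ s', U i)

/-- The points inside arcs of the unit circle about `z` all of whose points have the palette `s`. -/
def ArcPoints (U : Fin 6 → Set (EuclideanSpace ℝ (Fin 2))) (z : EuclideanSpace ℝ (Fin 2))
    (s : Set (Fin 6)) : Set (EuclideanSpace ℝ (Fin 2)) :=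
  {p | dist p z = 1 ∧ ∃ r > 0, ∀ y, dist y z = 1 → dist y p < r → IsPalette U y s}

/-- Let `V i` be six open subsets of the Euclidean plane without two points at distance one whose
union is dense (by `AllColouringsOpen` a proper 6-colouring of the plane exists if and only if there
are six such sets).  They are contained in sets `U i` which are maximal among the open sets without
two points at distance one.

Let `U` be such a maximal family, and let `O k`, `k ≥ 3`, be open sets such that `O k` contains all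
points of order `> k`.  Then one of the following holds.

* There is a point in `O 3`, `O 4`, `O 5` with the palette of all six indices.
* There are two points `z`, `z'` at distance one with palettes of `5` and `n ≥ 4` indices, `z` in
  `O 3` and `O 4`, and `z'` in `O k` for `3 ≤ k < n`.
* There are two points `z`, `v` in `O 3` with the palettes of four indices `{a, b, c, d}` and
  `{a, b, c, x}`, where `v` is a limit of points inside arcs of the unit circle about `z` whose
  points have the palette `{a, b}`, `z` is a limit of points inside arcs of the unit circle about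
  `v` whose points have the palette `{a, c}`, and the unit circle about `z` has an arc whose points
  have the palette `{c, d}`.
* There is a point `z` in `O 3` with a palette of four indices `{a, b, c, d}`, such that the unit
  circle about `z` has an arc whose points have the palette `{a, b}`, an arc whose points have the
  palette `{c, d}`, and two points `y`, `y'` at distance one, `y` in `O 3` with a palette of four
  indices which contains both indices `e`, `f` other than `a`, `b`, `c`, `d`, and `y'` in the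
  closures of `U e` and `U f`. -/
theorem result :
    (∀ V : Fin 6 → Set (EuclideanSpace ℝ (Fin 2)), (∀ i, IsOpen (V i)) →
      (∀ i, ∀ x ∈ V i, ∀ y ∈ V i, dist x y ≠ 1) → Dense (⋃ i, V i) →
      ∃ U : Fin 6 → Set (EuclideanSpace ℝ (Fin 2)), (∀ i, V i ⊆ U i) ∧ Dense (⋃ i, U i) ∧
        ∀ i, Maximal (fun W : Set (EuclideanSpace ℝ (Fin 2)) =>
          IsOpen W ∧ ∀ x ∈ W, ∀ y ∈ W, dist x y ≠ 1) (U i)) ∧
    (∀ U : Fin 6 → Set (EuclideanSpace ℝ (Fin 2)), Dense (⋃ i, U i) →
      (∀ i, Maximal (fun W : Set (EuclideanSpace ℝ (Fin 2)) =>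
        IsOpen W ∧ ∀ x ∈ W, ∀ y ∈ W, dist x y ≠ 1) (U i)) →
      ∀ O : ℕ → Set (EuclideanSpace ℝ (Fin 2)), (∀ k, IsOpen (O k)) →
        (∀ k, 3 ≤ k → OrderGT U k ⊆ O k) →
      (∃ z, IsPalette U z univ ∧ ∀ k, 3 ≤ k → k < 6 → z ∈ O k) ∨
      (∃ z z' P P', dist z z' = 1 ∧ P.ncard = 5 ∧ 4 ≤ P'.ncard ∧ IsPalette U z P ∧
        IsPalette U z' P' ∧ (∀ k, 3 ≤ k → k < 5 → z ∈ O k) ∧
        ∀ k, 3 ≤ k → k < P'.ncard → z' ∈ O k) ∨
      (∃ z v a b c d x, [a, b, c, d].Nodup ∧ [a, b, c, x].Nodup ∧ z ∈ O 3 ∧ v ∈ O 3 ∧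
        IsPalette U z {a, b, c, d} ∧ IsPalette U v {a, b, c, x} ∧
        v ∈ closure (ArcPoints U z {a, b}) ∧ z ∈ closure (ArcPoints U v {a, c}) ∧
        (ArcPoints U z {c, d}).Nonempty) ∨
      ∃ z y y' a b c d e f, [a, b, c, d, e, f].Nodup ∧ z ∈ O 3 ∧ y ∈ O 3 ∧
        IsPalette U z {a, b, c, d} ∧ (ArcPoints U z {a, b}).Nonempty ∧
        (ArcPoints U z {c, d}).Nonempty ∧ dist y z = 1 ∧ dist y' z = 1 ∧ dist y y' = 1 ∧
        (∃ P, P.ncard = 4 ∧ e ∈ P ∧ f ∈ P ∧ IsPalette U y P) ∧
        y' ∈ closure (U e) ∧ y' ∈ closure (U f)) := by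
  refine ⟨fun V hV hfree hd => ?_, fun U hd hU O hO hX => ?_⟩
  · choose U hVU hU using fun i =>
      Vale.Agent.P032.S5.H926.exists_maximal_ge (hV i) (hfree i)
    exact ⟨U, hVU, hd.mono (iUnion_mono hVU), hU⟩
  · exact Vale.Agent.P032.H821.special (fun U T h hm hl hN =>
      Vale.Agent.P032.H642.k3_or_c1 h hm hN (Vale.Agent.P032.H993.BW.s1_wild h hm hl)
        (Vale.Agent.P032.H993.BW.s2_wild h hm hl)) hd hU hO hX

end Vale.Agent.Results.P032.SpecialPairs
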